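import Vale.Agent.P099.Bdl.B1
open MeasureTheory

namespace Vale.Agent.Results.P099.IrrationalTriangles

open Vale.Agent.P099

/-- For every irrational triangle the billiard flow exists, is unique up to null sets, preserves the
normalized Liouville measure, is ergodic and is weakly mixing. -/
theorem result (T : Triangle) (hT : T.IsIrrational) :
    (∃ Ψ : ℝ → ℂ × ℂ → ℂ × ℂ, T.IsBilliardFlow Ψ ∧ (∀ t, MeasurePreserving (Ψ t) T.mu T.mu) ∧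
      ∀ Φ : ℝ → ℂ × ℂ → ℂ × ℂ, T.IsBilliardFlow Φ → ∀ t, ∀ᵐ p ∂T.mu, Φ t p = Ψ t p) ∧
    ∀ Φ : ℝ → ℂ × ℂ → ℂ × ℂ, T.IsBilliardFlow Φ →
      FlowErgodic T.mu Φ ∧ FlowWeakMixing T.mu Φ := by
  obtain ⟨Ψ, hΨ, hb, hu⟩ := Triangle.exists_good_flow T
  refine ⟨⟨Ψ, hb, hΨ.mp, hu⟩, fun Φ hΦ => ⟨T.ergodic_flow hT hΦ, ?_⟩⟩
  exact T.weakMixing_of_good hT hΦ hΨ (hu Φ hΦ)

end Vale.Agent.Results.P099.IrrationalTriangles
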