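import Vale.Agent.P099.Bdl.B1
open MeasureTheory

/-- For every irrational triangle the billiard flow exists (as a measurable, measure preserving
flow), and every version of it is ergodic and weakly mixing. -/
theorem Vale.Agent.Results.P099.Main.result (T : Vale.Agent.P099.Triangle)
    (hT : T.IsIrrational) :
    (∃ Φ : ℝ → ℂ × ℂ → ℂ × ℂ, T.IsBilliardFlow Φ ∧
      Measurable (fun z : ℝ × (ℂ × ℂ) => Φ z.1 z.2) ∧
      ∀ t, MeasurePreserving (Φ t) T.mu T.mu) ∧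
    ∀ Φ : ℝ → ℂ × ℂ → ℂ × ℂ, T.IsBilliardFlow Φ →
      Vale.Agent.P099.FlowErgodic T.mu Φ ∧ Vale.Agent.P099.FlowWeakMixing T.mu Φ := by
  obtain ⟨Ψ, hΨ, hΨb, huniq⟩ := T.exists_good_flow
  refine ⟨⟨Ψ, hΨb, hΨ.meas, hΨ.mp⟩, fun Φ hΦ => ⟨T.ergodic hT Φ hΦ, ?_⟩⟩
  exact T.weakMixing_of_good hT hΦ hΨ (huniq Φ hΦ)
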